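import Crest.Agent.N255.Ch.Tr
import Crest.Agent.N255.Ch.Main

-- ▼ part N255/Md/Cf
section

/-!
# Row 255 (helper12): cochains on cliques with arbitrary coefficients, ordered cochains
-/

set_option autoImplicit false
open Finsupp

noncomputable section

namespace Crest.Agent.N255.Md

open Ch

theorem exists_ginv {M N : Type} [AddCommGroup M] [AddCommGroup N] [Module.Finite ℤ M]
    [Module.IsTorsionFree ℤ M] (f : N →ₗ[ℤ] M)
    (sat : ∀ (c : ℤ) y, c • y ∈ LinearMap.range f → c = 0 ∨ y ∈ LinearMap.range f) :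
    ∃ g : M →ₗ[ℤ] N, ∀ x, f (g (f x)) = f x := by
  have : Module.IsTorsionFree ℤ (M ⧸ LinearMap.range f) :=
    Module.IsTorsionFree.of_smul_eq_zero fun c y h => by
      obtain ⟨y, rfl⟩ := Submodule.Quotient.mk_surjective _ y
      rw [← Submodule.Quotient.mk_smul, Submodule.Quotient.mk_eq_zero] at h
      exact (sat c y h).imp_right (Submodule.Quotient.mk_eq_zero _).2
  obtain ⟨s, hs⟩ := Module.projective_lifting_property (LinearMap.range f).mkQ LinearMap.id
    (Submodule.mkQ_surjective _)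
  have hρ : ∀ y, (LinearMap.id - s ∘ₗ (LinearMap.range f).mkQ : M →ₗ[ℤ] M) y ∈ LinearMap.range f :=
    fun y => by
      rw [← Submodule.Quotient.mk_eq_zero, ← Submodule.mkQ_apply, LinearMap.sub_apply, map_sub,
        LinearMap.comp_apply, ← LinearMap.comp_apply _ s, hs]
      simp
  obtain ⟨g, hg⟩ := Module.projective_lifting_property f.rangeRestrict (LinearMap.codRestrict _ _ hρ)
    f.surjective_rangeRestrict
  refine ⟨g, fun x => (congrArg Subtype.val (LinearMap.congr_fun hg (f x))).trans ?_⟩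
  have : (LinearMap.range f).mkQ (f x) = 0 := (Submodule.Quotient.mk_eq_zero _).2 ⟨x, rfl⟩
  simp [this]

variable {S K : Type} [DecidableEq S] [LinearOrder K] {Γ : SimpleGraph S} {col : S → K}
  {U T : Finset S} {A : Type} [AddCommGroup A]

omit [DecidableEq S] in
theorem Q_finite (U : Finset S) : (Q Γ U ∅).Finite :=
  U.powerset.finite_toSet.subset fun _ h => Finset.mem_coe.2 (Finset.mem_powerset.2 h.2.2)

theorem rs_card (n : ℕ) (a : Finset S →₀ ℤ) :
    dq Γ col U (rs {t | t.card = n} a) = rs {t | t.card = n + 1} (dq Γ col U a) := by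
  ext t
  classical
  by_cases h : t.card = n + 1
  · rw [rs_of_mem (U := {t : Finset S | t.card = n + 1}) _ h, dq_apply, dq_apply]
    refine if_congr Iff.rfl (Finset.sum_congr rfl fun s hs => ?_) rfl
    rw [rs_of_mem (U := {t : Finset S | t.card = n}) _
      (show _ = n by rw [Finset.card_erase_of_mem (Finset.mem_inter.1 hs).1, h]; rfl)]
  · rw [rs_of_notMem (U := {t : Finset S | t.card = n + 1}) _ h, dq_apply]
    split_ifs
    · refine Finset.sum_eq_zero fun s hs => ?_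
      rw [rs_of_notMem (U := {t : Finset S | t.card = n}) _ fun e => h ?_, mul_zero]
      rw [← Finset.card_erase_add_one (Finset.mem_inter.1 hs).1, show _ = n from e]
    · rfl

/-- the image of the coboundary is saturated -/
def Sat (Γ : SimpleGraph S) (col : S → K) (U : Finset S) : Prop :=
  ∀ (c : ℤ), ∀ y ∈ Sp (Q Γ U ∅), ∀ a ∈ Sp (Q Γ U ∅), dq Γ col U a = c • y → c ≠ 0 →
    ∃ b ∈ Sp (Q Γ U ∅), dq Γ col U b = y

theorem Sat.ginv (h : Sat Γ col U) (n : ℕ) : ∃ g : (Finset S →₀ ℤ) →ₗ[ℤ] (Finset S →₀ ℤ),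
    (∀ y, g y ∈ Sp (Q Γ U ∅ ∩ {t | t.card = n})) ∧
      ∀ x ∈ Sp (Q Γ U ∅ ∩ {t | t.card = n}), dq Γ col U (g (dq Γ col U x)) = dq Γ col U x := by
  have := (Q_finite (Γ := Γ) U).to_subtype
  have : Module.Finite ℤ (Sp (Q Γ U ∅)) := Module.Finite.equiv (supportedEquivFinsupp _).symm
  obtain ⟨g, hg⟩ := exists_ginv ((dq Γ col U).restrict (cl_Q U ∅)) fun c y ⟨a, ha⟩ =>
    or_iff_not_imp_left.2 fun hc => by
      obtain ⟨b, hb, e⟩ := h c y y.2 a a.2 (congrArg Subtype.val ha) hc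
      exact ⟨⟨b, hb⟩, Subtype.ext e⟩
  refine ⟨rs {t | t.card = n} ∘ₗ (Sp _).subtype ∘ₗ g ∘ₗ LinearMap.codRestrict _ _ (rs_mem (Q Γ U ∅)),
    fun y => rs_mem_inter _ (g _).2, fun x hx => ?_⟩
  have h1 : x ∈ Sp (Q Γ U ∅) := Sp_mono Set.inter_subset_left hx
  have e : LinearMap.codRestrict _ _ (rs_mem (Q Γ U ∅)) (dq Γ col U x) =
      (dq Γ col U).restrict (cl_Q U ∅) ⟨x, h1⟩ := Subtype.ext (rs_eq_self (cl_Q U ∅ x h1))
  simp only [LinearMap.comp_apply, rs_card, e]
  rw [show dq Γ col U ((Sp _).subtype (g _)) = dq Γ col U x from congrArg Subtype.val (hg ⟨x, h1⟩),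
    ← rs_card, rs_eq_self (Sp_mono Set.inter_subset_right hx)]

variable (col) in
/-- the coboundary with coefficients -/
def dA (a : Finset S → A) (t : Finset S) : A := ∑ s ∈ t, eps col s (t.erase s) • a (t.erase s)

/-- periods with coefficients -/
def pA (z : Finset S → ℤ) (U : Finset S) (a : Finset S → A) : A := ∑ t ∈ U.powerset, z t • a t

omit [DecidableEq S] in
theorem pA_mono {z : Finset S → ℤ} (h : ∀ t, z t ≠ 0 → t ⊆ T) (hT : T ⊆ U) (a : Finset S → A) :
    pA z U a = pA z T a :=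
  (Finset.sum_subset (Finset.powerset_mono.2 hT) fun t _ ht => by
    rw [show z t = 0 from by_contra fun e => ht (Finset.mem_powerset.2 (h t e)), zero_smul]).symm

open Classical in
/-- the cliques with `n` elements -/
def Xn (Γ : SimpleGraph S) (U : Finset S) (n : ℕ) : Finset (Finset S) :=
  U.powerset.filter fun t => Γ.IsClique (t : Set S) ∧ t.card = n

theorem mem_Xn {n : ℕ} {t : Finset S} : t ∈ Xn Γ U n ↔ t ∈ Q Γ U ∅ ∩ {t | t.card = n} := by
  simp [Xn, Q, and_comm, and_left_comm]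

theorem sum_dq {n : ℕ} {a : Finset S → A} (ha : ∀ v ∈ Xn Γ U (n + 1), dA col a v = 0)
    (l : (Finset S →₀ ℤ) →ₗ[ℤ] ℤ) : ∑ t ∈ Xn Γ U n, l (dq Γ col U (single t 1)) • a t = 0 := by
  classical
  have e : ∀ t ∈ Xn Γ U n, l (dq Γ col U (single t 1)) =
      ∑ v ∈ Xn Γ U (n + 1), dq Γ col U (single t 1) v * l (single v 1) := fun t ht => by
    have : dq Γ col U (single t 1) =
        ∑ v ∈ Xn Γ U (n + 1), dq Γ col U (single t 1) v • single v (1 : ℤ) := by
      ext v
      rw [Finsupp.finsetSum_apply]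
      simp only [Finsupp.smul_apply, single_apply, smul_eq_mul, mul_ite, mul_one, mul_zero,
        Finset.sum_ite_eq']
      split_ifs with h
      · rfl
      by_contra h'
      obtain ⟨hc, s, hs, hn, rfl⟩ := dq_ne h'
      exact h (mem_Xn.2 ⟨⟨hc, Finset.empty_subset _, Finset.insert_subset hs (mem_Xn.1 ht).1.2.2⟩,
        by rw [Set.mem_ofPred_eq, Finset.card_insert_of_notMem hn, show t.card = n from (mem_Xn.1 ht).2]⟩)
    conv_lhs => rw [this]
    simp only [map_sum, map_smul, smul_eq_mul]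
  rw [Finset.sum_congr rfl fun t ht => by rw [e t ht, Finset.sum_smul], Finset.sum_comm]
  refine Finset.sum_eq_zero fun v hv => ?_
  have hv' := mem_Xn.1 hv
  simp only [mul_comm _ (l _), mul_smul, ← Finset.smul_sum]
  rw [show ∑ t ∈ Xn Γ U n, dq Γ col U (single t 1) v • a t = dA col a v from ?_, ha v hv, smul_zero]
  simp only [dq_apply, if_pos hv'.1.1, Finset.inter_eq_left.2 hv'.1.2.2, Finset.sum_smul]
  rw [Finset.sum_comm]
  refine Finset.sum_congr rfl fun s hs => ?_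
  simp only [single_apply, mul_ite, mul_one, mul_zero, ite_smul, zero_smul, Finset.sum_ite_eq']
  exact if_pos (mem_Xn.2 ⟨Q_erase hv'.1 s, by
    rw [Set.mem_ofPred_eq, Finset.card_erase_of_mem hs, show v.card = n + 1 from hv'.2]; rfl⟩)

/-- **change of coefficients** -/
theorem coef (sat : Sat Γ col U) {J : Type} (B : Finset J)
    (z : J → Finset S → ℤ) (x : J → Finset S →₀ ℤ) {n : ℕ}
    (hz : ∀ j ∈ B, ∀ t, z j t ≠ 0 → t ∈ Q Γ U ∅ ∧ t.card = n)
    (span : ∀ y ∈ Sp (Q Γ U ∅ ∩ {t | t.card = n}), dq Γ col U y = 0 →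
      ∃ b, y = dq Γ col U b + ∑ j ∈ B, pe (z j) y • x j)
    {a : Finset S → A} (ha : ∀ v ∈ Xn Γ U (n + 1), dA col a v = 0) :
    ∃ η : Finset S → A, ∀ t ∈ Xn Γ U n, a t = dA col η t + ∑ j ∈ B, x j t • pA (z j) U a := by
  classical
  obtain ⟨g, g1, g2⟩ := sat.ginv n
  have : ∀ t ∈ Xn Γ U n, ∃ b, single t 1 - g (dq Γ col U (single t 1)) = dq Γ col U b +
      ∑ j ∈ B, pe (z j) (single t 1 - g (dq Γ col U (single t 1))) • x j := fun t ht =>
    span _ (Submodule.sub_mem _ (single_mem (mem_Xn.1 ht) 1) (g1 _))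
      (by rw [map_sub, g2 _ (single_mem (mem_Xn.1 ht) 1), sub_self])
  choose! h hh using this
  refine ⟨fun u => ∑ t ∈ Xn Γ U n, h t u • a t, fun t' ht' => ?_⟩
  have ht'' := mem_Xn.1 ht'
  have e0 : a t' = ∑ t ∈ Xn Γ U n, (single t 1 - g (dq Γ col U (single t 1)) : Finset S →₀ ℤ) t' • a t := by
    simp only [Finsupp.sub_apply, sub_smul, Finset.sum_sub_distrib]
    rw [show ∑ t ∈ Xn Γ U n, g (dq Γ col U (single t 1)) t' • a t = 0 from
      sum_dq ha (lapply t' ∘ₗ g), sub_zero]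
    simp only [single_apply, ite_smul, one_smul, zero_smul, Finset.sum_ite_eq', if_pos ht']
  rw [e0, Finset.sum_congr rfl fun t ht => by rw [hh t ht]]
  simp only [Finsupp.add_apply, add_smul, Finset.sum_add_distrib]
  congr 1
  · simp only [dq_apply, if_pos ht''.1.1, Finset.inter_eq_left.2 ht''.1.2.2, Finset.sum_smul, dA,
      Finset.smul_sum, mul_smul]
    exact Finset.sum_comm
  · simp only [Finsupp.finsetSum_apply, Finset.sum_smul]
    rw [Finset.sum_comm]
    refine Finset.sum_congr rfl fun j hj => ?_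
    simp only [Finsupp.smul_apply, smul_eq_mul, mul_comm _ (x j t'), mul_smul, ← Finset.smul_sum]
    simp only [map_sub, sub_smul, Finset.sum_sub_distrib]
    rw [show ∑ t ∈ Xn Γ U n, pe (z j) (g (dq Γ col U (single t 1))) • a t = 0 from
      sum_dq ha (pe (z j) ∘ₗ g), sub_zero]
    simp only [linearCombination_single, one_smul]
    congr 1
    refine Finset.sum_subset (Finset.filter_subset _ _) fun t _ ht => ?_
    rw [show z j t = 0 from by_contra fun e => ht (mem_Xn.2 (hz j hj t e)), zero_smul]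

/-! ### ordered cochains -/

/-- equal or adjacent -/
def Cl (Γ : SimpleGraph S) (a b : S) : Prop := a = b ∨ Γ.Adj a b

omit [DecidableEq S] in
theorem Cl.refl (a : S) : Cl Γ a a := Or.inl rfl

omit [DecidableEq S] in
theorem Cl.symm {a b : S} (h : Cl Γ a b) : Cl Γ b a := h.imp Eq.symm SimpleGraph.Adj.symm

/-- closed one-cochains on `U` -/
def Z1 (Γ : SimpleGraph S) (U : Set S) (φ : S → S → A) : Prop :=
  ∀ a ∈ U, ∀ b ∈ U, ∀ c ∈ U, Cl Γ a b → Cl Γ a c → Cl Γ b c → φ a c = φ a b + φ b c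

/-- closed two-cochains on `U` -/
def Z2 (Γ : SimpleGraph S) (U : Set S) (φ : S → S → S → A) : Prop :=
  ∀ a ∈ U, ∀ b ∈ U, ∀ c ∈ U, ∀ d ∈ U, Cl Γ a b → Cl Γ a c → Cl Γ a d → Cl Γ b c → Cl Γ b d →
    Cl Γ c d → φ b c d + φ a b d = φ a c d + φ a b c

variable (col) in
/-- the value on the sorted pair -/
def s1 (φ : S → S → A) (t : Finset S) : A := ∑ a ∈ t, ∑ b ∈ t, if col a < col b then φ a b else 0

variable (col) in
/-- the value on the sorted triple -/
def s2 (φ : S → S → S → A) (t : Finset S) : A :=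
  ∑ a ∈ t, ∑ b ∈ t, ∑ c ∈ t, if col a < col b ∧ col b < col c then φ a b c else 0

theorem s1_pair (φ : S → S → A) {a b : S} (h : col a < col b) : s1 col φ {a, b} = φ a b := by
  have n : a ≠ b := fun e => h.ne (e ▸ rfl)
  simp [s1, Finset.sum_pair n, h, h.not_gt]

theorem s2_tri (φ : S → S → S → A) {a b c : S} (h : col a < col b) (h' : col b < col c) :
    s2 col φ {a, b, c} = φ a b c := by
  have h'' := h.trans h'
  have n1 : a ≠ b := fun e => h.ne (e ▸ rfl)
  have n2 : b ≠ c := fun e => h'.ne (e ▸ rfl)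
  have n3 : a ≠ c := fun e => h''.ne (e ▸ rfl)
  have m : a ∉ ({b, c} : Finset S) := by simp [n1, n3]
  simp [s2, Finset.sum_insert m, Finset.sum_pair n2, h, h', h'', h.not_gt, h'.not_gt, h''.not_gt]

theorem dA_one (η : Finset S → A) (a : S) : dA col η {a} = η ∅ := by simp [dA, eps]

theorem dA_pair (η : Finset S → A) {a b : S} (h : col a < col b) :
    dA col η {a, b} = η {b} - η {a} := by
  have n : a ≠ b := fun e => h.ne (e ▸ rfl)
  have e1 : ({a, b} : Finset S).erase a = {b} := Finset.erase_insert (by simpa using n)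
  have e2 : ({a, b} : Finset S).erase b = {a} := by rw [Finset.pair_comm]; exact Finset.erase_insert (by simpa using n.symm)
  rw [dA, Finset.sum_pair n, e1, e2]
  simp [eps, Finset.filter_singleton, h, h.not_gt, sub_eq_add_neg]

theorem dA_tri (η : Finset S → A) {a b c : S} (h : col a < col b) (h' : col b < col c) :
    dA col η {a, b, c} = η {b, c} - η {a, c} + η {a, b} := by
  have h'' := h.trans h'
  have n1 : a ≠ b := fun e => h.ne (e ▸ rfl)
  have n2 : b ≠ c := fun e => h'.ne (e ▸ rfl)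
  have n3 : a ≠ c := fun e => h''.ne (e ▸ rfl)
  have m : a ∉ ({b, c} : Finset S) := by simp [n1, n3]
  have e1 : ({a, b, c} : Finset S).erase a = {b, c} := Finset.erase_insert m
  have e2 : ({a, b, c} : Finset S).erase b = {a, c} := by ext; simp; grind
  have e3 : ({a, b, c} : Finset S).erase c = {a, b} := by ext; simp; grind
  rw [dA, Finset.sum_insert m, Finset.sum_pair n2, e1, e2, e3]
  simp [eps, Finset.filter_insert, Finset.filter_singleton, h, h', h'', h.not_gt, h'.not_gt,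
    h''.not_gt, sub_eq_add_neg, add_assoc, Finset.card_pair n1]

theorem dA_tet (η : Finset S → A) {a b c d : S} (h : col a < col b) (h' : col b < col c)
    (k : col c < col d) :
    dA col η {a, b, c, d} = η {b, c, d} - η {a, c, d} + η {a, b, d} - η {a, b, c} := by
  have h'' := h.trans h'
  have k' := h'.trans k
  have k'' := h.trans k'
  have n : ∀ {x y : S}, col x < col y → x ≠ y := fun h e => h.ne (e ▸ rfl)
  have m : a ∉ ({b, c, d} : Finset S) := by simp [n h, n h'', n k'']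
  have m' : b ∉ ({c, d} : Finset S) := by simp [n h', n k']
  have m'' : a ∉ ({b, c} : Finset S) := by simp [n h, n h'']
  have := n h; have := n h'; have := n k; have := n h''; have := n k'; have := n k''
  have e1 : ({a, b, c, d} : Finset S).erase a = {b, c, d} := Finset.erase_insert m
  have e2 : ({a, b, c, d} : Finset S).erase b = {a, c, d} := by ext; simp; grind
  have e3 : ({a, b, c, d} : Finset S).erase c = {a, b, d} := by ext; simp; grind
  have e4 : ({a, b, c, d} : Finset S).erase d = {a, b, c} := by ext; simp; grind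
  rw [dA, Finset.sum_insert m, Finset.sum_insert m', Finset.sum_pair (n k), e1, e2, e3, e4]
  simp [eps, Finset.filter_insert, Finset.filter_singleton, h, h', h'', h.not_gt, h'.not_gt,
    h''.not_gt, k, k', k'', k.not_gt, k'.not_gt, k''.not_gt, sub_eq_add_neg, add_assoc,
    Finset.card_pair (n h), Finset.card_insert_of_notMem m'', Finset.card_pair (n h'), pow_succ]

variable (hcol : ∀ s t, Γ.Adj s t → col s ≠ col t)
include hcol

omit [DecidableEq S] in
theorem lt_or {a b : S} (h : Cl Γ a b) : a = b ∨ col a < col b ∨ col b < col a :=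
  h.imp_right fun h => lt_or_gt_of_ne (hcol a b h)

theorem exists_min {n : ℕ} {t : Finset S} (h : t ∈ Xn Γ U (n + 1)) :
    ∃ a u, u ∈ Xn Γ U n ∧ t = insert a u ∧ a ∈ U ∧ ∀ b ∈ u, Γ.Adj a b ∧ col a < col b := by
  obtain ⟨h1, h2⟩ := mem_Xn.1 h
  obtain ⟨a, ha, hm⟩ := t.exists_min_image col (Finset.card_pos.1 (by rw [show t.card = _ from h2]; omega))
  refine ⟨a, t.erase a, mem_Xn.2 ⟨Q_erase h1 a, by
    rw [Set.mem_ofPred_eq, Finset.card_erase_of_mem ha, show t.card = _ from h2]; rfl⟩,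
    (Finset.insert_erase ha).symm, h1.2.2 ha, fun b hb => ?_⟩
  have hb' := Finset.mem_erase.1 hb
  have := h1.1 ha hb'.2 hb'.1.symm
  exact ⟨this, (hm b hb'.2).lt_of_ne (hcol a b this)⟩

theorem X1 {t : Finset S} (h : t ∈ Xn Γ U 1) : ∃ a ∈ U, t = {a} := by
  obtain ⟨a, u, hu, rfl, ha, -⟩ := exists_min hcol h
  obtain rfl := Finset.card_eq_zero.1 (mem_Xn.1 hu).2
  exact ⟨a, ha, rfl⟩

theorem X2 {t : Finset S} (h : t ∈ Xn Γ U 2) :
    ∃ a ∈ U, ∃ b ∈ U, Γ.Adj a b ∧ col a < col b ∧ t = {a, b} := by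
  obtain ⟨a, u, hu, rfl, ha, k⟩ := exists_min hcol h
  obtain ⟨b, hb, rfl⟩ := X1 hcol hu
  exact ⟨a, ha, b, hb, (k b (by simp)).1, (k b (by simp)).2, rfl⟩

theorem X3 {t : Finset S} (h : t ∈ Xn Γ U 3) : ∃ a ∈ U, ∃ b ∈ U, ∃ c ∈ U, Γ.Adj a b ∧ Γ.Adj a c ∧
    Γ.Adj b c ∧ col a < col b ∧ col b < col c ∧ t = {a, b, c} := by
  obtain ⟨a, u, hu, rfl, ha, k⟩ := exists_min hcol h
  obtain ⟨b, hb, c, hc, h1, h2, rfl⟩ := X2 hcol hu
  exact ⟨a, ha, b, hb, c, hc, (k b (by simp)).1, (k c (by simp)).1, h1, (k b (by simp)).2, h2, rfl⟩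

theorem X4 {t : Finset S} (h : t ∈ Xn Γ U 4) : ∃ a ∈ U, ∃ b ∈ U, ∃ c ∈ U, ∃ d ∈ U, Γ.Adj a b ∧
    Γ.Adj a c ∧ Γ.Adj a d ∧ Γ.Adj b c ∧ Γ.Adj b d ∧ Γ.Adj c d ∧ col a < col b ∧ col b < col c ∧
    col c < col d ∧ t = {a, b, c, d} := by
  obtain ⟨a, u, hu, rfl, ha, k⟩ := exists_min hcol h
  obtain ⟨b, hb, c, hc, d, hd, h1, h2, h3, h4, h5, rfl⟩ := X3 hcol hu
  exact ⟨a, ha, b, hb, c, hc, d, hd, (k b (by simp)).1, (k c (by simp)).1, (k d (by simp)).1, h1, h2,
    h3, (k b (by simp)).2, h4, h5, rfl⟩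

omit hcol in
theorem pair_mem {a b : S} (ha : a ∈ U) (hb : b ∈ U) (h : Γ.Adj a b) : {a, b} ∈ Xn Γ U 2 :=
  mem_Xn.2 ⟨⟨by simpa using SimpleGraph.isClique_pair.2 fun _ => h, Finset.empty_subset _,
    Finset.insert_subset ha (by simpa using hb)⟩, Finset.card_pair h.ne⟩

omit hcol in
theorem tri_mem {a b c : S} (ha : a ∈ U) (hb : b ∈ U) (hc : c ∈ U) (h : Γ.Adj a b) (h' : Γ.Adj a c)
    (h'' : Γ.Adj b c) : {a, b, c} ∈ Xn Γ U 3 := by
  have := SimpleGraph.is3Clique_triple_iff.2 ⟨h, h', h''⟩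
  exact mem_Xn.2 ⟨⟨this.1, Finset.empty_subset _,
    Finset.insert_subset ha (Finset.insert_subset hb (by simpa using hc))⟩, this.2⟩

theorem Z1.closed {φ : S → S → A} (h : Z1 Γ (U : Set S) φ) : ∀ v ∈ Xn Γ U 3, dA col (s1 col φ) v = 0 := by
  intro v hv
  obtain ⟨a, ha, b, hb, c, hc, h1, h2, h3, l1, l2, rfl⟩ := X3 hcol hv
  rw [dA_tri _ l1 l2, s1_pair _ l1, s1_pair _ l2, s1_pair _ (l1.trans l2),
    h a ha b hb c hc (.inr h1) (.inr h2) (.inr h3)]
  abel

theorem Z2.closed {φ : S → S → S → A} (h : Z2 Γ (U : Set S) φ) :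
    ∀ v ∈ Xn Γ U 4, dA col (s2 col φ) v = 0 := by
  intro v hv
  obtain ⟨a, ha, b, hb, c, hc, d, hd, h1, h2, h3, h4, h5, h6, l1, l2, l3, rfl⟩ := X4 hcol hv
  rw [dA_tet _ l1 l2 l3, s2_tri _ l2 l3, s2_tri _ (l1.trans l2) l3, s2_tri _ l1 (l2.trans l3),
    s2_tri _ l1 l2, sub_add_eq_add_sub,
    h a ha b hb c hc d hd (.inr h1) (.inr h2) (.inr h3) (.inr h4) (.inr h5) (.inr h6)]
  abel

omit [DecidableEq S] in
/-- a closed one-cochain is determined by its values on sorted edges -/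
theorem Z1.ord {V : Set S} {φ : S → S → A} (h : Z1 Γ V φ) {η : S → A}
    (k : ∀ a ∈ V, ∀ b ∈ V, Γ.Adj a b → col a < col b → φ a b = η b - η a) :
    ∀ a ∈ V, ∀ b ∈ V, Cl Γ a b → φ a b = η b - η a := by
  have z : ∀ a ∈ V, φ a a = 0 := fun a ha => by
    simpa using h a ha a ha a ha (.refl a) (.refl a) (.refl a)
  intro a ha b hb c
  rcases c with rfl | c
  · rw [z a ha, sub_self]
  rcases lt_or_gt_of_ne (hcol a b c) with l | l
  · exact k a ha b hb c l
  · have := h a ha b hb a ha (.inr c) (.refl a) (.inr c.symm)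
    rw [z a ha, k b hb a ha c.symm l] at this
    rw [eq_neg_of_add_eq_zero_left this.symm, neg_sub]

omit [DecidableEq S] in
/-- a closed two-cochain which is exact on sorted triangles is exact -/
theorem Z2.ord {V : Set S} {φ : S → S → S → A} (h : Z2 Γ V φ) {η : S → S → A}
    (k : ∀ a ∈ V, ∀ b ∈ V, ∀ c ∈ V, Γ.Adj a b → Γ.Adj a c → Γ.Adj b c → col a < col b →
      col b < col c → φ a b c = η b c - η a c + η a b) :
    ∃ ψ : S → S → A, ∀ a ∈ V, ∀ b ∈ V, ∀ c ∈ V, Cl Γ a b → Cl Γ a c → Cl Γ b c →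
      φ a b c = ψ b c - ψ a c + ψ a b := by
  let ψ : S → S → A := fun a b => if col a < col b then η a b else if col b < col a then
    φ b a b + φ b b b - η b a else φ a a a
  let D : S → S → S → A := fun a b c => φ a b c - (ψ b c - ψ a c + ψ a b)
  have p0 : ∀ a, ψ a a = φ a a a := fun a => by simp [ψ]
  have p1 : ∀ a b, col a < col b → ψ a b = η a b := fun a b l => if_pos l
  have p2 : ∀ a b, col a < col b → ψ b a = φ a b a + φ a a a - η a b := fun a b l => by
    simp [ψ, l, l.not_gt]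
  have hD : Z2 Γ V D := fun a ha b hb c hc d hd h1 h2 h3 h4 h5 h6 => by
    have := h a ha b hb c hc d hd h1 h2 h3 h4 h5 h6
    simp only [D]
    rw [← sub_eq_zero] at this ⊢
    rw [← this]; abel
  have d1 : ∀ a ∈ V, ∀ b ∈ V, Cl Γ a b → D a a b = 0 := fun a ha b hb c => by
    have := h a ha a ha a ha b hb (.refl a) (.refl a) c (.refl a) c c
    simp only [D, p0]
    rw [add_left_cancel this]; abel
  have d2 : ∀ a ∈ V, ∀ b ∈ V, Cl Γ a b → D a b b = 0 := fun a ha b hb c => by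
    have := h a ha b hb b hb b hb c c c (.refl b) (.refl b) (.refl b)
    simp only [D, p0]
    rw [add_right_cancel this]; abel
  have d3 : ∀ a ∈ V, ∀ b ∈ V, Cl Γ a b → D a b a = 0 := fun a ha b hb c => by
    have q : ∀ a b, col a < col b → D a b a = 0 := fun a b l => by
      simp only [D, p0, p1 a b l, p2 a b l]; abel
    rcases lt_or hcol c with rfl | l | l
    · exact d1 a ha a ha c
    · exact q a b l
    · have := hD a ha b hb a ha b hb c (.refl a) c c.symm (.refl b) c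
      rw [q b a l, d2 a ha b hb c, d1 a ha b hb c, zero_add, zero_add] at this
      exact this.symm
  have w1 : ∀ a ∈ V, ∀ b ∈ V, ∀ c ∈ V, Cl Γ a b → Cl Γ a c → Cl Γ b c → D a b c = 0 → D b a c = 0 :=
    fun a ha b hb c hc h1 h2 h3 e => by
      have := hD a ha b hb a ha c hc h1 (.refl a) h2 h1.symm h3 h2
      rwa [e, d1 a ha c hc h2, d3 a ha b hb h1, add_zero, add_zero] at this
  have w2 : ∀ a ∈ V, ∀ b ∈ V, ∀ c ∈ V, Cl Γ a b → Cl Γ a c → Cl Γ b c → D a b c = 0 → D a c b = 0 :=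
    fun a ha b hb c hc h1 h2 h3 e => by
      have := hD a ha b hb c hc b hb h1 h2 h1 h3 (.refl b) h3.symm
      rw [e, d2 a ha b hb h1, d3 b hb c hc h3, add_zero, add_zero] at this
      exact this.symm
  have o : ∀ a ∈ V, ∀ b ∈ V, ∀ c ∈ V, Γ.Adj a b → Γ.Adj a c → Γ.Adj b c → col a < col b →
      col b < col c → D a b c = 0 := fun a ha b hb c hc h1 h2 h3 l1 l2 => by
    simp only [D, p1 _ _ l1, p1 _ _ l2, p1 _ _ (l1.trans l2)]
    exact sub_eq_zero.2 (k a ha b hb c hc h1 h2 h3 l1 l2)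
  refine ⟨ψ, fun a ha b hb c hc h1 h2 h3 => sub_eq_zero.1 (show D a b c = 0 from ?_)⟩
  rcases h1 with rfl | ab
  · exact d1 a ha c hc h2
  rcases h3 with rfl | bc
  · exact d2 a ha b hb (.inr ab)
  rcases h2 with rfl | ac
  · exact d3 a ha b hb (.inr ab)
  rcases lt_or_gt_of_ne (hcol _ _ ab) with p | p <;> rcases lt_or_gt_of_ne (hcol _ _ ac) with q | q <;>
    rcases lt_or_gt_of_ne (hcol _ _ bc) with r | r
  · exact o a ha b hb c hc ab ac bc p r
  · exact w2 a ha c hc b hb (.inr ac) (.inr ab) (.inr bc.symm) (o a ha c hc b hb ac ab bc.symm q r)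
  · exact absurd (p.trans r) q.not_gt
  · exact w2 a ha c hc b hb (.inr ac) (.inr ab) (.inr bc.symm) (w1 c hc a ha b hb (.inr ac.symm)
      (.inr bc.symm) (.inr ab) (o c hc a ha b hb ac.symm bc.symm ab q p))
  · exact w1 b hb a ha c hc (.inr ab.symm) (.inr bc) (.inr ac) (o b hb a ha c hc ab.symm bc ac p q)
  · exact absurd (r.trans p) q.not_gt
  · exact w1 b hb a ha c hc (.inr ab.symm) (.inr bc) (.inr ac) (w2 b hb c hc a ha (.inr bc)
      (.inr ab.symm) (.inr ac.symm) (o b hb c hc a ha bc ab.symm ac.symm r q))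
  · exact w1 b hb a ha c hc (.inr ab.symm) (.inr bc) (.inr ac) (w2 b hb c hc a ha (.inr bc)
      (.inr ab.symm) (.inr ac.symm) (w1 c hc b hb a ha (.inr bc.symm) (.inr ac.symm) (.inr ab.symm)
        (o c hc b hb a ha bc.symm ac.symm ab.symm r p)))

end Crest.Agent.N255.Md

end
end

-- ▼ part N255/Md/Mod

/-!
# Row 255 (helper12): cohomology of a chamber and of a wall with arbitrary coefficients
-/

set_option autoImplicit false
open Finsupp

noncomputable section

namespace Crest.Agent.N255.Md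

open Ch

section gen
variable {S K : Type} [DecidableEq S] [LinearOrder K] {Γ : SimpleGraph S} {col : S → K}
  {U T : Finset S} {A : Type} [AddCommGroup A] {z : Finset S → ℤ}

theorem pe_pA (h : ∀ t, z t ≠ 0 → t ⊆ U) (y : Finset S →₀ ℤ) : pe z y = pA z U y := by
  induction y using Finsupp.induction_linear with
  | zero => simp [pA]
  | add a b ha hb => simp [pA, mul_add, Finset.sum_add_distrib] at ha hb ⊢; rw [ha, hb]
  | single t r =>
    simp only [pA, linearCombination_single, single_apply, smul_eq_mul, mul_ite, mul_zero,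
      Finset.sum_ite_eq]
    split_ifs with e
    · exact mul_comm _ _
    · rw [show z t = 0 from by_contra fun e' => e (Finset.mem_powerset.2 (h t e')), mul_zero]

omit [DecidableEq S] in
theorem pA_congr {a b : Finset S → A} (h : ∀ t, z t ≠ 0 → a t = b t) : pA z U a = pA z U b :=
  Finset.sum_congr rfl fun t _ => by
    by_cases e : z t = 0
    · rw [e, zero_smul, zero_smul]
    · rw [h t e]

omit [DecidableEq S] in
theorem pA_add (a b : Finset S → A) : pA z U (fun t => a t + b t) = pA z U a + pA z U b := by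
  simp [pA, Finset.sum_add_distrib]

omit [DecidableEq S] in
theorem pA_sub (a b : Finset S → A) : pA z U (fun t => a t - b t) = pA z U a - pA z U b := by
  simp [pA, smul_sub, Finset.sum_sub_distrib]

omit [DecidableEq S] in
theorem pA_sum {J : Type} (B : Finset J) (x : J → Finset S → ℤ) (v : J → A) :
    pA z U (fun t => ∑ j ∈ B, x j t • v j) = ∑ j ∈ B, pA z U (x j) • v j := by
  simp only [pA, Finset.smul_sum, Finset.sum_smul, smul_eq_mul, mul_smul]
  exact Finset.sum_comm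

theorem pA_dA (hs : ∀ t, z t ≠ 0 → t ∈ Q Γ T ∅)
    (hc : ∀ t ∈ Q Γ T ∅, pe z (dq Γ col T (single t 1)) = 0) (η : Finset S → A) :
    pA z T (dA col η) = 0 := by
  classical
  have e : ∀ t, z t ≠ 0 → dA col η t =
      ∑ u ∈ T.powerset.filter (· ∈ Q Γ T ∅), dq Γ col T (single u 1) t • η u := fun t ht => by
    have hv := hs t ht
    simp only [dq_apply, if_pos hv.1, Finset.inter_eq_left.2 hv.2.2, Finset.sum_smul]
    rw [Finset.sum_comm]
    refine Finset.sum_congr rfl fun s _ => ?_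
    simp only [single_apply, mul_ite, mul_one, mul_zero, ite_smul, zero_smul, Finset.sum_ite_eq']
    exact (if_pos (Finset.mem_filter.2 ⟨Finset.mem_powerset.2 (Q_erase hv s).2.2, Q_erase hv s⟩)).symm
  rw [pA_congr e, pA_sum]
  exact Finset.sum_eq_zero fun u hu => by
    rw [← pe_pA fun t ht => (hs t ht).2.2, hc u (Finset.mem_filter.1 hu).2, zero_smul]

omit [DecidableEq S] in
theorem pe_card {V : Set (Finset S)} {n k : ℕ} (hz : ∀ t, z t ≠ 0 → t.card = k) {y : Finset S →₀ ℤ}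
    (hy : y ∈ Sp (V ∩ {t | t.card = n})) (h : n ≠ k) : pe z y = 0 :=
  pe_zero fun t ht => by_contra fun e => h ((mem_Sp.1 hy t e).2.symm.trans (hz t ht))

omit [DecidableEq S] in
theorem s1_sub (φ ψ : S → S → A) (t : Finset S) :
    s1 col (fun a b => φ a b - ψ a b) t = s1 col φ t - s1 col ψ t := by
  simp only [s1, ← Finset.sum_sub_distrib]
  exact Finset.sum_congr rfl fun a _ => Finset.sum_congr rfl fun b _ => by split_ifs <;> simp

omit [DecidableEq S] in
theorem s1_sum {J : Type} (B : Finset J) (x : J → S → S → ℤ) (v : J → A) (t : Finset S) :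
    s1 col (fun a b => ∑ j ∈ B, x j a b • v j) t = ∑ j ∈ B, s1 col (x j) t • v j := by
  simp only [s1, Finset.sum_smul]
  rw [Finset.sum_comm (s := B)]
  refine Finset.sum_congr rfl fun a _ => ?_
  rw [Finset.sum_comm (s := B)]
  exact Finset.sum_congr rfl fun b _ => by split_ifs <;> simp

omit [DecidableEq S] in
theorem s2_sub (φ : S → S → S → A) (x : S → S → S → ℤ) (v : A) (t : Finset S) :
    s2 col (fun a b c => φ a b c - x a b c • v) t = s2 col φ t - s2 col x t • v := by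
  simp only [s2, Finset.sum_smul, ← Finset.sum_sub_distrib]
  exact Finset.sum_congr rfl fun a _ => Finset.sum_congr rfl fun b _ =>
    Finset.sum_congr rfl fun c _ => by split_ifs <;> simp

theorem const_of (hcol : ∀ s t, Γ.Adj s t → col s ≠ col t) (sat : Sat Γ col U)
    (glob : ∀ y ∈ Sp (Q Γ U ∅ ∩ {t | t.card = 1}), dq Γ col U y = 0 → ∃ b, dq Γ col U b = y)
    {φ : S → A} (h : ∀ a ∈ U, ∀ b ∈ U, Γ.Adj a b → φ a = φ b) : ∀ a ∈ U, ∀ b ∈ U, φ a = φ b := by
  obtain ⟨η, hη⟩ := coef (n := 1) sat (∅ : Finset Unit) 0 0 (by simp)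
    (fun y hy hd => by simpa [eq_comm] using glob y hy hd) (a := fun t => ∑ s ∈ t, φ s) fun v hv => by
      obtain ⟨a, ha, b, hb, h1, l, rfl⟩ := X2 hcol hv
      simp [dA_pair _ l, h a ha b hb h1]
  have : ∀ a ∈ U, φ a = η ∅ := fun a ha => by
    simpa [dA_one] using hη {a} (mem_Xn.2 ⟨⟨by simp, by simp, by simpa using ha⟩, by simp⟩)
  exact fun a ha b hb => (this a ha).trans (this b hb).symm

theorem Z1.of_dA (hcol : ∀ s t, Γ.Adj s t → col s ≠ col t) {φ : S → S → A} (h : Z1 Γ (U : Set S) φ)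
    {η : Finset S → A} (hη : ∀ t ∈ Xn Γ U 2, s1 col φ t = dA col η t) :
    ∀ a ∈ U, ∀ b ∈ U, Cl Γ a b → φ a b = η {b} - η {a} :=
  h.ord hcol (η := fun a => η {a}) fun a ha b hb c l => by
    rw [← s1_pair φ l, hη _ (pair_mem ha hb c), dA_pair _ l]

omit [DecidableEq S] in
theorem Z1.mono {V W : Set S} {φ : S → S → A} (h : Z1 Γ V φ) (hW : W ⊆ V) : Z1 Γ W φ :=
  fun a ha b hb c hc => h a (hW ha) b (hW hb) c (hW hc)

omit [DecidableEq S] in
theorem Z2.mono {V W : Set S} {φ : S → S → S → A} (h : Z2 Γ V φ) (hW : W ⊆ V) : Z2 Γ W φ :=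
  fun a ha b hb c hc d hd => h a (hW ha) b (hW hb) c (hW hc) d (hW hd)

omit [DecidableEq S] in
theorem Z1.sub_sum {V : Set S} {φ : S → S → A} (h : Z1 Γ V φ) {J : Type} {B : Finset J}
    {x : J → S → S → ℤ} (hx : ∀ j ∈ B, Z1 Γ V (x j)) (v : J → A) :
    Z1 Γ V fun a b => φ a b - ∑ j ∈ B, x j a b • v j := fun a ha b hb c hc h1 h2 h3 => by
  dsimp only
  rw [h a ha b hb c hc h1 h2 h3, Finset.sum_congr rfl fun j hj => by
    rw [hx j hj a ha b hb c hc h1 h2 h3, add_smul], Finset.sum_add_distrib]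
  abel

end gen

variable {S K F Nd Ed : Type} [DecidableEq S] [LinearOrder K] [Group F] [MulAction F Nd]
  [MulAction F Ed] {M : Ce.Mir S K F Nd Ed} {A : Type} [AddCommGroup A]

variable (M) in
/-- the period of a one-cochain over the cycle `z` of the wall of `e` -/
def p1 (e : Ed) (z : Finset S → ℤ) (φ : S → S → A) : A := pA z (M.sp (M.tgt e)) (s1 M.col φ)

variable (M) in
/-- the period of a two-cochain over the cycle `z` of the wall of `e` -/
def p2 (e : Ed) (z : Finset S → ℤ) (φ : S → S → S → A) : A := pA z (M.sp (M.tgt e)) (s2 M.col φ)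

theorem p1_sub_sum (e : Ed) (z : Finset S → ℤ) (φ : S → S → A) {J : Type} (B : Finset J)
    (x : J → S → S → ℤ) (v : J → A) : p1 M e z (fun a b => φ a b - ∑ j ∈ B, x j a b • v j) =
      p1 M e z φ - ∑ j ∈ B, p1 M e z (x j) • v j := by
  unfold p1
  rw [← pA_sum, ← pA_sub]
  exact pA_congr fun t _ => by rw [s1_sub, s1_sum]

theorem p1_congr {e : Ed} {z : Finset S → ℤ} {k : ℕ} (h : Loc.Cyc M e z k) {φ ψ : S → S → A}
    (k : ∀ a ∈ M.sp (M.tgt e), ∀ b ∈ M.sp (M.tgt e), M.Γ.Adj a b → φ a b = ψ a b) :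
    p1 M e z φ = p1 M e z ψ :=
  pA_congr fun t ht => Finset.sum_congr rfl fun a ha => Finset.sum_congr rfl fun b hb => by
    have := (h.sup t ht).1
    split_ifs with l
    · exact k a (this.2.2 ha) b (this.2.2 hb) (this.1 ha hb fun e => l.ne (e ▸ rfl))
    · rfl

/-- periods of exact cochains vanish -/
theorem p1_exact {e : Ed} {z : Finset S → ℤ} (h : Loc.Cyc M e z 2) {φ : S → S → A} {η : S → A}
    (k : ∀ a ∈ M.sp (M.tgt e), ∀ b ∈ M.sp (M.tgt e), M.Γ.Adj a b → φ a b = η b - η a) :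
    p1 M e z φ = 0 := by
  rw [← pA_dA (fun t ht => (h.sup t ht).1) h.cyc fun t => ∑ s ∈ t, η s]
  refine pA_congr fun t ht => ?_
  obtain ⟨a, ha, b, hb, c, l, rfl⟩ := X2 M.col_ne (mem_Xn.2 (h.sup t ht))
  simp [s1_pair _ l, dA_pair _ l, k a ha b hb c]


variable [DecidableEq Ed] (L : Loc M)
include L

theorem sat_ch {n : Nd} (hn : ¬M.ty n) : Sat M.Γ M.col (M.sp n) := fun c y hy a _ e hc =>
  (L.wal n hn).glob y hy
    ((smul_eq_zero.1 (by rw [← map_smul, ← e, dq_dq M.col_ne])).resolve_left hc) fun j hj =>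
    have w : M.sp (M.tgt j) ⊆ M.sp n := (show M.src j = n from hj) ▸ L.wall j
    ⟨(smul_eq_zero.1 (by rw [← map_smul, ← e, (L.cm j).dq w])).resolve_left hc,
      (smul_eq_zero.1 (by rw [← map_smul, ← e, (L.cω j).dq w])).resolve_left hc⟩

theorem sat_wall (j : Ed) : Sat M.Γ M.col (M.sp (M.tgt j)) := fun c y hy a _ e hc =>
  (L.tor j).glob y hy
    ((smul_eq_zero.1 (by rw [← map_smul, ← e, dq_dq M.col_ne])).resolve_left hc)
    ((smul_eq_zero.1 (by rw [← map_smul, ← e, (L.cm j).dq subset_rfl])).resolve_left hc)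
    ((smul_eq_zero.1 (by rw [← map_smul, ← e, (L.cl j).dq subset_rfl])).resolve_left hc)
    ((smul_eq_zero.1 (by rw [← map_smul, ← e, (L.cω j).dq subset_rfl])).resolve_left hc)

/-- a chamber is connected -/
theorem c0 {n : Nd} (hn : ¬M.ty n) {φ : S → A}
    (h : ∀ a ∈ M.sp n, ∀ b ∈ M.sp n, M.Γ.Adj a b → φ a = φ b) : ∀ a ∈ M.sp n, ∀ b ∈ M.sp n, φ a = φ b :=
  const_of M.col_ne (sat_ch L hn) (fun y hy hd => by
    obtain ⟨b, -, e⟩ := (L.wal n hn).glob y (Sp_mono Set.inter_subset_left hy) hd fun j _ =>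
      ⟨pe_card (fun t ht => ((L.cm j).sup t ht).2) hy (by omega),
        pe_card (fun t ht => ((L.cω j).sup t ht).2) hy (by omega)⟩
    exact ⟨b, e⟩) h

/-- a wall is connected -/
theorem t0 (j : Ed) {φ : S → A}
    (h : ∀ a ∈ M.sp (M.tgt j), ∀ b ∈ M.sp (M.tgt j), M.Γ.Adj a b → φ a = φ b) :
    ∀ a ∈ M.sp (M.tgt j), ∀ b ∈ M.sp (M.tgt j), φ a = φ b :=
  const_of M.col_ne (sat_wall L j) (fun y hy hd => by
    obtain ⟨b, -, e⟩ := (L.tor j).glob y (Sp_mono Set.inter_subset_left hy) hd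
      (pe_card (fun t ht => ((L.cm j).sup t ht).2) hy (by omega))
      (pe_card (fun t ht => ((L.cl j).sup t ht).2) hy (by omega))
      (pe_card (fun t ht => ((L.cω j).sup t ht).2) hy (by omega))
    exact ⟨b, e⟩) h

theorem wall_ne (j : Ed) : (M.sp (M.tgt j)).Nonempty := by
  obtain ⟨t, ht, h⟩ := (L.tor j).top ∅ ⟨by simp, by simp, by simp⟩
  have := ((L.tor j).ω_sup t (by rcases h with h | h <;> simp [h])).2
  exact (Finset.card_pos.1 (by omega)).mono ht.2.2

theorem exists_X : ∃ X : Ed → Finset S →₀ ℤ, ∀ j, X j ∈ Sp (Q M.Γ (M.sp (M.src j)) ∅) ∧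
    dq M.Γ M.col (M.sp (M.src j)) (X j) = 0 ∧ ∀ i, M.src i = M.src j →
      pe (L.m i) (X j) = (if i = j then 1 else 0) ∧ pe (L.m (L.op i)) (X j) = 0 ∧
        pe (L.ω i) (X j) = 0 := by
  have := fun j => (L.wal _ (M.ty_src j)).one j rfl
  choose X h1 h2 h3 using this
  exact ⟨X, fun j => ⟨h1 j, h2 j, h3 j⟩⟩

theorem ch_coef {n : Nd} (hn : ¬M.ty n) {φ : S → S → A} (h : Z1 M.Γ (M.sp n : Set S) φ) :
    ∃ (X : Ed → Finset S →₀ ℤ) (η : Finset S → A), (∀ j ∈ star M n, ∀ i, M.src i = n →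
      pe (L.m (L.op i)) (X j) = 0) ∧ ∀ t ∈ Xn M.Γ (M.sp n) 2,
        s1 M.col φ t = dA M.col η t + ∑ j ∈ star M n, X j t • p1 M j (L.m j) φ := by
  obtain ⟨X, hX⟩ := exists_X L
  have w : ∀ j ∈ star M n, M.sp (M.tgt j) ⊆ M.sp n := fun j hj => mem_star.1 hj ▸ L.wall j
  obtain ⟨η, hη⟩ := coef (n := 2) (sat_ch L hn) (star M n) L.m X
    (fun j hj t ht => ((L.cm j).sup t ht).imp_left fun k => Q_mono (w j hj) subset_rfl k)
    (fun y hy hd => by
      obtain ⟨b, -, e⟩ := (L.wal n hn).glob (y - ∑ j ∈ star M n, pe (L.m j) y • X j)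
        (Submodule.sub_mem _ (Sp_mono Set.inter_subset_left hy) (Submodule.sum_mem _ fun j hj =>
          Submodule.smul_mem _ _ (mem_star.1 hj ▸ (hX j).1)))
        (by
          simp only [map_sub, map_sum, map_smul, hd]
          rw [Finset.sum_eq_zero fun j hj => by
            rw [show dq M.Γ M.col (M.sp n) (X j) = 0 from mem_star.1 hj ▸ (hX j).2.1, smul_zero],
            sub_zero])
        fun i hi => by
          have q : ∀ j ∈ star M n, M.src i = M.src j := fun j hj =>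
            (show M.src i = n from hi).trans (mem_star.1 hj).symm
          simp only [map_sub, map_sum, map_smul, smul_eq_mul]
          constructor
          · rw [Finset.sum_congr rfl fun j hj => by rw [((hX j).2.2 i (q j hj)).1]]
            simp [mem_star.2 hi]
          · rw [Finset.sum_eq_zero fun j hj => by rw [((hX j).2.2 i (q j hj)).2.2, mul_zero],
              pe_card (fun t ht => ((L.cω i).sup t ht).2) hy (by omega), sub_zero]
      exact ⟨b, by rw [e, sub_add_cancel]⟩) (h.closed M.col_ne)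
  refine ⟨X, η, fun j hj i hi => ((hX j).2.2 i (hi.trans (mem_star.1 hj).symm)).2.1, fun t ht => ?_⟩
  rw [hη t ht]
  exact congrArg _ (Finset.sum_congr rfl fun j hj => by
    rw [pA_mono (fun t ht => ((L.cm j).sup t ht).1.2.2) (w j hj)]; rfl)

/-- `H¹` of a chamber is detected by the meridians -/
theorem c1 {n : Nd} (hn : ¬M.ty n) {φ : S → S → A} (h : Z1 M.Γ (M.sp n : Set S) φ)
    (hp : ∀ e, M.src e = n → p1 M e (L.m e) φ = 0) :
    ∃ η : S → A, ∀ a ∈ M.sp n, ∀ b ∈ M.sp n, Cl M.Γ a b → φ a b = η b - η a := by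
  obtain ⟨X, η, -, hη⟩ := ch_coef L hn h
  exact ⟨_, h.of_dA M.col_ne (η := η) fun t ht => by
    rw [hη t ht, Finset.sum_eq_zero fun j hj => by rw [hp j (mem_star.1 hj), smul_zero], add_zero]⟩

/-- the longitudes bound in the chamber -/
theorem lon (e : Ed) {φ : S → S → A} (h : Z1 M.Γ (M.sp (M.src e) : Set S) φ) :
    p1 M e (L.m (L.op e)) φ = 0 := by
  obtain ⟨X, η, hX, hη⟩ := ch_coef L (M.ty_src e) h
  have c := L.cl e
  rw [p1, pA_congr fun t ht => hη t (mem_Xn.2 ((c.sup t ht).imp_left fun k =>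
    Q_mono (L.wall e) subset_rfl k)), pA_add, pA_dA (fun t ht => (c.sup t ht).1) c.cyc, pA_sum, zero_add]
  exact Finset.sum_eq_zero fun j hj => by
    rw [← pe_pA fun t ht => (c.sup t ht).1.2.2, hX j hj e rfl, zero_smul]

/-- `H¹` of a wall is detected by meridian and longitude -/
theorem t1 (e : Ed) {φ : S → S → A} (h : Z1 M.Γ (M.sp (M.tgt e) : Set S) φ)
    (hm : p1 M e (L.m e) φ = 0) (hl : p1 M e (L.m (L.op e)) φ = 0) :
    ∃ η : S → A, ∀ a ∈ M.sp (M.tgt e), ∀ b ∈ M.sp (M.tgt e), Cl M.Γ a b → φ a b = η b - η a := by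
  obtain ⟨X, hX⟩ := exists_X L
  have ne := (L.op_ne e).symm
  have d : ∀ j, M.tgt j = M.tgt e →
      dq M.Γ M.col (M.sp (M.tgt e)) (rs (Q M.Γ (M.sp (M.tgt e)) ∅) (X j)) = 0 := fun j hj => by
    rw [← rs_dq (hj ▸ L.wall j), (hX j).2.1, map_zero]
  obtain ⟨a1, a2, a3⟩ := (hX e).2.2 e rfl
  obtain ⟨b1, b2, b3⟩ := (hX (L.op e)).2.2 (L.op e) rfl
  rw [if_pos rfl] at a1 b1
  rw [L.op_op] at b2
  rw [L.pe_op, neg_eq_zero] at b3
  obtain ⟨η, hη⟩ := coef (n := 2) (sat_wall L e) {e, L.op e} L.m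
    (fun j => rs (Q M.Γ (M.sp (M.tgt e)) ∅) (X j))
    (fun j hj t ht => by
      rcases Finset.mem_insert.1 hj with rfl | hj
      · exact (L.cm j).sup t ht
      · rw [Finset.mem_singleton.1 hj] at ht; exact (L.cl e).sup t ht)
    (fun y hy hd => by
      rw [Finset.sum_pair ne]
      obtain ⟨b, -, e⟩ := (L.tor e).glob (y - (pe (L.m e) y • rs (Q M.Γ (M.sp (M.tgt e)) ∅) (X e) +
          pe (L.m (L.op e)) y • rs (Q M.Γ (M.sp (M.tgt e)) ∅) (X (L.op e))))
        (Submodule.sub_mem _ (Sp_mono Set.inter_subset_left hy) (Submodule.add_mem _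
          (Submodule.smul_mem _ _ (rs_mem _ _)) (Submodule.smul_mem _ _ (rs_mem _ _))))
        (by simp only [map_sub, map_add, map_smul, hd, d e rfl, d _ (L.tgt_op e)]; simp)
        (by simp only [map_sub, map_add, map_smul, (L.cm e).rs, a1, b2]; simp)
        (by simp only [map_sub, map_add, map_smul, (L.cl e).rs, a2, b1]; simp)
        (by
          simp only [map_sub, map_add, map_smul, (L.cω e).rs, a3, b3,
            pe_card (fun t ht => ((L.cω e).sup t ht).2) hy (by omega)]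
          simp)
      exact ⟨b, by rw [e, sub_add_cancel]⟩) (h.closed M.col_ne)
  exact ⟨_, h.of_dA M.col_ne (η := η) fun t ht => by
    unfold p1 at hm hl
    rw [hη t ht, Finset.sum_pair ne, hm, hl]; simp⟩

/-- `H²` of a wall is detected by the fundamental class -/
theorem t2 (e : Ed) {φ : S → S → S → A} (h : Z2 M.Γ (M.sp (M.tgt e) : Set S) φ)
    (hω : p2 M e (L.ω e) φ = 0) : ∃ ψ : S → S → A, ∀ a ∈ M.sp (M.tgt e), ∀ b ∈ M.sp (M.tgt e),
      ∀ c ∈ M.sp (M.tgt e), Cl M.Γ a b → Cl M.Γ a c → Cl M.Γ b c → φ a b c = ψ b c - ψ a c + ψ a b := by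
  obtain ⟨t, ht, ho⟩ := (L.tor e).top ∅ ⟨by simp, by simp, by simp⟩
  have n0 : L.ω e t ≠ 0 := by rcases ho with h | h <;> simp [h]
  have c3 := ((L.cω e).sup t n0).2
  have q : ∀ {z}, Loc.Cyc M e z 2 → z t = 0 := fun c => by_contra fun k => by
    have := (c.sup t k).2; omega
  obtain ⟨η, hη⟩ := coef (n := 3) (sat_wall L e) {e} L.ω (fun _ => single t (L.ω e t))
    (fun j hj t ht => by rw [Finset.mem_singleton.1 hj] at ht; exact (L.cω e).sup t ht)
    (fun y hy hd => by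
      rw [Finset.sum_singleton]
      obtain ⟨b, -, e⟩ := (L.tor e).glob (y - pe (L.ω e) y • single t (L.ω e t))
        (Submodule.sub_mem _ (Sp_mono Set.inter_subset_left hy)
          (Submodule.smul_mem _ _ (single_mem ht _)))
        (by rw [map_sub, map_smul, hd, L.dq_tri n0]; simp)
        (by rw [map_sub, map_smul, pe_card (fun t ht => ((L.cm e).sup t ht).2) hy (by omega)]
            simp [q (L.cm e)])
        (by rw [map_sub, map_smul, pe_card (fun t ht => ((L.cl e).sup t ht).2) hy (by omega)]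
            simp [q (L.cl e)])
        (by rw [map_sub, map_smul]; rcases ho with h | h <;> simp [h])
      exact ⟨b, by rw [e, sub_add_cancel]⟩) (h.closed M.col_ne)
  exact h.ord M.col_ne (η := fun a b => η {a, b}) fun a ha b hb c hc h1 h2 h3 l l' => by
    unfold p2 at hω
    rw [← s2_tri φ l l', hη _ (tri_mem ha hb hc h1 h2 h3), dA_tri _ l l', Finset.sum_singleton,
      hω, smul_zero, add_zero]

/-- span form on a wall -/
theorem t1_span (e : Ed) {φ : S → S → A} (h : Z1 M.Γ (M.sp (M.tgt e) : Set S) φ) {α β : S → S → ℤ}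
    (hα : Z1 M.Γ (M.sp (M.tgt e) : Set S) α) (hβ : Z1 M.Γ (M.sp (M.tgt e) : Set S) β)
    (a1 : p1 M e (L.m e) α = 1) (a2 : p1 M e (L.m (L.op e)) α = 0)
    (b1 : p1 M e (L.m e) β = 0) (b2 : p1 M e (L.m (L.op e)) β = 1) :
    ∃ η : S → A, ∀ a ∈ M.sp (M.tgt e), ∀ b ∈ M.sp (M.tgt e), Cl M.Γ a b → φ a b = η b - η a +
      α a b • p1 M e (L.m e) φ + β a b • p1 M e (L.m (L.op e)) φ := by
  obtain ⟨η, k⟩ := t1 L e (h.sub_sum (B := Finset.univ) (x := fun j : Bool => cond j α β)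
    (fun j _ => by cases j; exacts [hβ, hα])
    fun j => cond j (p1 M e (L.m e) φ) (p1 M e (L.m (L.op e)) φ))
    (by rw [p1_sub_sum]; simp [a1, b1]) (by rw [p1_sub_sum]; simp [a2, b2])
  exact ⟨η, fun a ha b hb c => by rw [← k a ha b hb c]; simp [add_assoc]⟩

theorem t2_span (e : Ed) {φ : S → S → S → A} (h : Z2 M.Γ (M.sp (M.tgt e) : Set S) φ)
    {γ : S → S → S → ℤ} (hγ : Z2 M.Γ (M.sp (M.tgt e) : Set S) γ) {u : ℤ}
    (g : p2 M e (L.ω e) γ * u = 1) : ∃ ψ : S → S → A, ∀ a ∈ M.sp (M.tgt e), ∀ b ∈ M.sp (M.tgt e),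
      ∀ c ∈ M.sp (M.tgt e), Cl M.Γ a b → Cl M.Γ a c → Cl M.Γ b c →
        φ a b c = ψ b c - ψ a c + ψ a b + γ a b c • u • p2 M e (L.ω e) φ := by
  obtain ⟨ψ, k⟩ := t2 L e (φ := fun a b c => φ a b c - γ a b c • u • p2 M e (L.ω e) φ)
    (fun a ha b hb c hc d hd h1 h2 h3 h4 h5 h6 => by
      rw [sub_add_sub_comm, sub_add_sub_comm, ← add_smul, ← add_smul,
        h a ha b hb c hc d hd h1 h2 h3 h4 h5 h6, hγ a ha b hb c hc d hd h1 h2 h3 h4 h5 h6])
    (by
      have := pA_sum (z := L.ω e) (U := M.sp (M.tgt e)) {()} (fun _ => s2 M.col γ)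
        fun _ => u • p2 M e (L.ω e) φ
      simp only [Finset.sum_singleton] at this
      rw [p2, pA_congr fun t _ => s2_sub _ _ _ t, pA_sub, this, smul_smul,
        show pA _ _ _ * u = 1 from g, one_smul]
      exact sub_self _)
  exact ⟨ψ, fun a ha b hb c hc h1 h2 h3 => by rw [← k a ha b hb c hc h1 h2 h3, sub_add_cancel]⟩

end Crest.Agent.N255.Md

end
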