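import Crest.Agent.N255.Md.Mod
import Crest.Agent.N255.Nv.Ctg

-- ▼ part N255/Md/Sub
section

/-!
# Row 255 (helper12): cohomology of convex unions of chambers
-/

set_option autoImplicit false

noncomputable section

namespace Crest.Agent.N255.Md

open Ch

open Classical in
/-- the potential on a rooted tree -/
def pot {Nd Ed A : Type} [AddCommGroup A] {src tgt : Ed → Nd} (R : Ce.Rt src tgt) (k : Ed → A)
    (t : Nd) : A :=
  if h : t = R.o then 0 else pot R k (R.dn (R.par t h).choose) + k (R.par t h).choose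
termination_by R.ht t
decreasing_by have := R.lt (R.par t h).choose; rwa [(R.par t h).choose_spec.1] at this

theorem up_ne {Nd Ed : Type} {src tgt : Ed → Nd} (R : Ce.Rt src tgt) (e : Ed) : R.up e ≠ R.o :=
  fun h => by have := R.lt e; rw [h, R.ht_o] at this; omega

theorem up_inj {Nd Ed : Type} {src tgt : Ed → Nd} (R : Ce.Rt src tgt) {e e' : Ed}
    (h : R.up e = R.up e') : e = e' := (R.par _ (up_ne R e')).unique h rfl

theorem pot_up {Nd Ed A : Type} [AddCommGroup A] {src tgt : Ed → Nd} (R : Ce.Rt src tgt) (k : Ed → A)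
    (e : Ed) : pot R k (R.up e) = pot R k (R.dn e) + k e := by
  rw [pot, dif_neg (up_ne R e), up_inj R (R.par _ (up_ne R e)).choose_spec.1]

variable {S K F Nd Ed : Type} [DecidableEq S] [LinearOrder K] [Group F] [MulAction F Nd]
  [MulAction F Ed] {M : Ce.Mir S K F Nd Ed} {A : Type} [AddCommGroup A]

omit [LinearOrder K] in
variable (M) in
/-- `H¹` of the tree vanishes -/
theorem exists_pot (k : Ed → A) : ∃ c : Nd → A, ∀ e, c (M.tgt e) = c (M.src e) + k e := by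
  classical
  obtain ⟨R, -⟩ := M.root ∅ (by simp)
  refine ⟨pot R fun e => if R.up e = M.tgt e then k e else -k e, fun e => ?_⟩
  have := pot_up R (fun e => if R.up e = M.tgt e then k e else -k e) e
  rcases R.ud e with h | h
  · rw [if_neg (h.1 ▸ src_ne_tgt e e), h.1, h.2] at this
    rw [this, neg_add_cancel_right]
  · rwa [if_pos h.1, h.1, h.2] at this

variable (M) in
/-- the union of the chambers of `N` -/
def Mod (N : Set Nd) : Set S := {a | ∃ n ∈ N, a ∈ M.sp n}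

variable [DecidableEq Ed] (L : Loc M)

/-- a convex set of chambers -/
structure Sub (N : Set Nd) : Prop where
  ty : ∀ n ∈ N, ¬M.ty n
  par : ∀ R : Ce.Rt M.src M.tgt, R.o ∈ N → ∀ e, M.src e ∈ N → R.up e = M.src e → M.src (L.op e) ∈ N

/-- `N` is the set of chambers behind the half edge `e` -/
structure Side (e : Ed) (N : Set Nd) : Prop where
  ty : ∀ n ∈ N, ¬M.ty n
  mem : M.src e ∈ N
  out : M.src (L.op e) ∉ N
  step : ∀ e', e' ≠ e → M.src e' ∈ N → M.src (L.op e') ∈ N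

include L

theorem exists_root {n : Nd} (hn : ¬M.ty n) : ∃ R : Ce.Rt M.src M.tgt, R.o = n := by
  obtain ⟨t, ht, ho⟩ := (L.wal n hn).top ∅ ⟨by simp, by simp, by simp⟩
  have h4 := ((L.wal n hn).o_sup t (by rcases ho with h | h <;> simp [h])).2
  obtain ⟨R, hR⟩ := M.root t ht.1
  have h1 : t ⊆ M.sp R.o := fun s hs => (hR s hs).1
  have q : ∀ e, ¬t ⊆ M.sp (M.tgt e) := fun e h => by
    have := M.dimE e t ht.1 (h.trans (L.wall e)) h; omega
  refine ⟨R, by_contra fun h => ?_⟩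
  by_cases hty : M.ty R.o
  · obtain ⟨e, he⟩ := L.mid _ hty
    exact q e (he ▸ h1)
  · obtain ⟨s, hs⟩ := Finset.card_pos.1 (show 0 < t.card by omega)
    obtain ⟨e, -, -, k⟩ := L.w2 _ _ s hty hn h (h1 hs) (ht.2.2 hs)
    exact q e ((Finset.subset_inter h1 ht.2.2).trans k)

theorem up_or (R : Ce.Rt M.src M.tgt) (ho : ¬M.ty R.o) (e : Ed) :
    (R.up e = M.src e ∧ R.up (L.op e) = M.tgt e ∧ R.ht (M.src (L.op e)) < R.ht (M.src e)) ∨
      (R.up e = M.tgt e ∧ R.up (L.op e) = M.src (L.op e)) := by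
  obtain ⟨e', h, -⟩ := R.par (M.tgt e) fun h => ho (h ▸ M.ty_tgt e)
  have h' : M.tgt e = M.tgt e' := ((R.ud e').resolve_left fun k =>
    src_ne_tgt _ _ (k.1.symm.trans h)).1.symm.trans h |>.symm
  rcases R.ud e with a | a
  · rcases L.tgt_eq e e' h' with rfl | rfl
    · exact absurd (a.1.symm.trans h) (src_ne_tgt _ _)
    · refine .inl ⟨a.1, h, ?_⟩
      have k1 := R.lt e
      have k2 := R.lt (L.op e)
      rw [((R.ud (L.op e)).resolve_left fun k => src_ne_tgt _ _ (k.1.symm.trans h)).2, h] at k2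
      rw [a.1, a.2] at k1
      exact k2.trans k1
  · exact .inr ⟨a.1, ((R.ud (L.op e)).resolve_right fun k =>
      L.op_ne e (up_inj R (k.1.trans ((L.tgt_op e).trans a.1.symm)))).1⟩

/-- induction from the root -/
theorem root_ind (R : Ce.Rt M.src M.tgt) (ho : ¬M.ty R.o) {P : Nd → Prop} (h0 : P R.o)
    (h : ∀ e, R.up e = M.src e → P (M.src (L.op e)) → P (M.src e)) : ∀ n, ¬M.ty n → P n := by
  intro n
  induction k : R.ht n using Nat.strong_induction_on generalizing n with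
  | _ k ih =>
  intro hn
  by_cases q : n = R.o
  · exact q ▸ h0
  obtain ⟨e, rfl, -⟩ := R.par n q
  have a := ((R.ud e).resolve_right fun k => hn (k.1 ▸ M.ty_tgt e)).1
  have b := ((up_or L R ho e).resolve_right fun k => src_ne_tgt _ _ (a.symm.trans k.1)).2.2
  rw [a] at k ⊢
  exact h e a (ih _ (k ▸ b) _ rfl (M.ty_src _))

variable {L} {N : Set Nd}

theorem Side.sub {e : Ed} (h : Side L e N) : Sub L N := ⟨h.ty, fun R ho e' he hu => by
  refine h.step e' (fun k => ?_) he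
  subst k
  have t := h.ty _ ho
  have u := ((up_or L R t e').resolve_right fun k => src_ne_tgt _ _ (hu.symm.trans k.1)).2.1
  refine root_ind L R t (P := fun n => n ∈ N) ho (fun e hu' k => ?_) _ (M.ty_src _) |> h.out
  by_cases q : L.op e = e'
  · rw [← q, L.op_op, hu'] at u
    exact absurd u (src_ne_tgt _ _)
  · simpa only [L.op_op] using h.step _ q k⟩

theorem Side.bd {e e' : Ed} (h : Side L e N) (h1 : M.src e' ∈ N) (h2 : M.src (L.op e') ∉ N) :
    e' = e := by_contra fun k => h2 (h.step e' k h1)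

/-- the other side -/
theorem Side.op {e : Ed} (h : Side L e N) : Side L (L.op e) {n | ¬M.ty n ∧ n ∉ N} :=
  ⟨fun _ k => k.1, ⟨M.ty_src _, h.out⟩, fun k => k.2 (by rw [L.op_op]; exact h.mem), fun e' k q =>
    ⟨M.ty_src _, fun r => q.2 (by
      simpa only [L.op_op] using h.step (L.op e') (fun a => k (by rw [← a, L.op_op])) r)⟩⟩






theorem sub_sides {J : Set Ed} {B : Ed → Set Nd} (h : ∀ e ∈ J, Side L e (B e)) :
    Sub L {n | ¬M.ty n ∧ ∀ e ∈ J, n ∈ B e} :=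
  ⟨fun _ k => k.1, fun R ho e he hu =>
    ⟨M.ty_src _, fun j hj => (h j hj).sub.par R (ho.2 j hj) e (he.2 j hj) hu⟩⟩

/-- the boundary half edges of an intersection of sides -/
theorem bd_sides {J : Set Ed} {B : Ed → Set Nd} (h : ∀ e ∈ J, Side L e (B e)) {e : Ed}
    (h1 : M.src e ∈ {n | ¬M.ty n ∧ ∀ e ∈ J, n ∈ B e})
    (h2 : M.src (L.op e) ∉ {n | ¬M.ty n ∧ ∀ e ∈ J, n ∈ B e}) : e ∈ J := by_contra fun k =>
  h2 ⟨M.ty_src _, fun j hj => (h j hj).step e (fun q => k (q ▸ hj)) (h1.2 j hj)⟩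

theorem Sub.ind (h : Sub L N) {n0 : Nd} (h0 : n0 ∈ N) {P : Nd → Prop} (p0 : P n0)
    (st : ∀ e, M.src e ∈ N → M.src (L.op e) ∈ N → P (M.src (L.op e)) → P (M.src e)) :
    ∀ n ∈ N, P n := by
  obtain ⟨R, rfl⟩ := exists_root L (h.ty _ h0)
  exact fun n hn => root_ind L R (h.ty _ h0) (P := fun n => n ∈ N → P n) (fun _ => p0)
    (fun e hu k he => st e he (h.par R h0 e he hu) (k (h.par R h0 e he hu))) n (h.ty n hn) hn

theorem Sub.cv (h : Sub L N) {e e' : Ed} (q : M.src e = M.src e') (h0 : M.src e ∉ N)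
    (h1 : M.src (L.op e) ∈ N) (h2 : M.src (L.op e') ∈ N) : e = e' := by
  obtain ⟨R, hR⟩ := exists_root L (h.ty _ h1)
  have k : ∀ j, M.src j ∉ N → M.src (L.op j) ∈ N → R.up j = M.src j := fun j a b =>
    ((up_or L R (hR ▸ M.ty_src _) j).resolve_right fun c =>
      a (by simpa only [L.op_op] using h.par R (hR ▸ h1) _ b c.2)).1
  exact up_inj R ((k e h0 h1).trans (q.trans (k e' (q ▸ h0) h2).symm))

/-- a clique in `Mod N` lies in one chamber of `N` -/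
theorem Sub.full (h : Sub L N) {t : Finset S} (hc : M.Γ.IsClique (t : Set S)) (hne : t.Nonempty)
    (ht : (t : Set S) ⊆ Mod M N) : ∃ n ∈ N, t ⊆ M.sp n := by
  obtain ⟨n, hn, h0⟩ := L.exists_vtx hc
  by_cases k : n ∈ N
  · exact ⟨n, k, h0⟩
  have : ∀ a ∈ t, ∃ e, M.src e = n ∧ M.src (L.op e) ∈ N ∧ a ∈ M.sp (M.src (L.op e)) := fun a ha => by
    obtain ⟨n', h1, h2⟩ := ht ha
    obtain ⟨e, a1, a2, -⟩ := L.w2 n n' a hn (h.ty _ h1) (fun q => k (q ▸ h1)) (h0 ha) h2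
    exact ⟨e, a1, a2 ▸ h1, a2 ▸ h2⟩
  obtain ⟨a, ha⟩ := hne
  obtain ⟨e, a1, a2, -⟩ := this a ha
  refine ⟨_, a2, fun b hb => ?_⟩
  obtain ⟨e', b1, b2, b3⟩ := this b hb
  rwa [h.cv (a1.trans b1.symm) (a1 ▸ k) a2 b2]

theorem Sub.full2 (h : Sub L N) {a b : S} (ha : a ∈ Mod M N) (hb : b ∈ Mod M N) (c : Cl M.Γ a b) :
    ∃ n ∈ N, a ∈ M.sp n ∧ b ∈ M.sp n := by
  obtain ⟨n, hn, k⟩ := h.full (t := {a, b})
    (by simpa using SimpleGraph.isClique_pair.2 fun q => c.resolve_left q) (by simp)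
    (by simpa using Set.pair_subset ha hb)
  exact ⟨n, hn, k (by simp), k (by simp)⟩

omit L [LinearOrder K] [DecidableEq Ed] in
theorem sp_sub {n : Nd} (hn : n ∈ N) : (M.sp n : Set S) ⊆ Mod M N := fun _ h => ⟨n, hn, h⟩

variable (L) in
theorem wall_op (e : Ed) : M.sp (M.tgt e) ⊆ M.sp (M.src (L.op e)) := L.tgt_op e ▸ L.wall (L.op e)

/-- `Mod` of an intersection of sides, when it has a chamber -/
theorem mod_sides {J : Set Ed} {B : Ed → Set Nd} (h : ∀ e ∈ J, Side L e (B e)) {n0 : Nd}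
    (h0 : n0 ∈ {n | ¬M.ty n ∧ ∀ e ∈ J, n ∈ B e}) {a : S} :
    a ∈ Mod M {n | ¬M.ty n ∧ ∀ e ∈ J, n ∈ B e} ↔ ∀ e ∈ J, a ∈ Mod M (B e) := by
  refine ⟨fun ⟨n, h1, h2⟩ e he => ⟨n, h1.2 e he, h2⟩, fun k => ?_⟩
  obtain ⟨R, rfl⟩ := exists_root L h0.1
  obtain ⟨n, hn, ha⟩ := L.exists_vtx (t0 := {a}) (by simp)
  replace ha : a ∈ M.sp n := ha (by simp)
  revert ha
  refine root_ind L R h0.1 (P := fun n => a ∈ M.sp n → a ∈ Mod M _) (fun ha => ⟨_, h0, ha⟩)
    (fun e hu ih ha => ?_) n hn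
  by_cases q : ∀ j ∈ J, M.src e ∈ B j
  · exact ⟨_, ⟨M.ty_src e, q⟩, ha⟩
  push Not at q
  obtain ⟨j, hj, q⟩ := q
  obtain ⟨n', h1, h2⟩ := k j hj
  obtain ⟨e', a1, a2, a3⟩ := L.w2 _ n' a (M.ty_src e) ((h j hj).ty _ h1) (fun r => q (r ▸ h1)) ha h2
  obtain rfl : e' = e := up_inj R (((up_or L R h0.1 e').resolve_right fun c => q (by
    simpa only [L.op_op, a1] using (h j hj).sub.par R (h0.2 j hj) _ (a2 ▸ h1) c.2)).1.trans
      (a1.trans hu.symm))
  exact ih (a2 ▸ h2)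


/-- **`Mod N` is connected** -/
theorem h0 (h : Sub L N) {φ : S → A}
    (hφ : ∀ a ∈ Mod M N, ∀ b ∈ Mod M N, M.Γ.Adj a b → φ a = φ b) :
    ∀ a ∈ Mod M N, ∀ b ∈ Mod M N, φ a = φ b := by
  have c : ∀ n ∈ N, ∀ a ∈ M.sp n, ∀ b ∈ M.sp n, φ a = φ b := fun n hn =>
    c0 L (h.ty n hn) fun a ha b hb => hφ a (sp_sub hn ha) b (sp_sub hn hb)
  rintro a ⟨n, hn, ha⟩ b ⟨n', hn', hb⟩
  refine h.ind hn' (P := fun n => ∀ a ∈ M.sp n, φ a = φ b) (fun a ha => c n' hn' a ha b hb)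
    (fun e h1 _ k a ha => ?_) n hn a ha
  obtain ⟨s, hs⟩ := wall_ne L e
  exact (c _ h1 a ha s (L.wall e hs)).trans (k s (wall_op L e hs))

/-- **`H¹ (Mod N)` is detected by the meridians of the boundary walls** -/
theorem h1 (h : Sub L N) {φ : S → S → A} (hφ : Z1 M.Γ (Mod M N) φ)
    (hp : ∀ e, M.src e ∈ N → M.src (L.op e) ∉ N → p1 M e (L.m e) φ = 0) :
    ∃ η : S → A, ∀ a ∈ Mod M N, ∀ b ∈ Mod M N, Cl M.Γ a b → φ a b = η b - η a := by
  have k : ∀ n ∈ N, ∃ η : S → A, ∀ a ∈ M.sp n, ∀ b ∈ M.sp n, Cl M.Γ a b → φ a b = η b - η a :=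
    fun n hn => c1 L (h.ty n hn) (hφ.mono (sp_sub hn)) fun e he => by
      by_cases q : M.src (L.op e) ∈ N
      · have := lon L (L.op e) (hφ.mono (sp_sub q))
        rwa [L.op_op, p1, L.tgt_op] at this
      · exact hp e (he ▸ hn) q
  choose! η hη using k
  have : ∀ e, ∃ s, s ∈ M.sp (M.tgt e) := wall_ne L
  have : ∀ n, ∃ s, ∀ e, M.tgt e = n → s ∈ M.sp n := fun n => by
    by_cases q : ∃ e, M.tgt e = n
    · obtain ⟨e, rfl⟩ := q
      exact (this e).imp fun s hs _ _ => hs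
    · obtain ⟨n0, h0⟩ := L.vtx
      obtain ⟨t, -, ho⟩ := (L.wal n0 h0).top ∅ ⟨by simp, by simp, by simp⟩
      have h4 := ((L.wal n0 h0).o_sup t (by rcases ho with h | h <;> simp [h])).2
      obtain ⟨s, -⟩ := Finset.card_pos.1 (show 0 < t.card by omega)
      exact ⟨s, fun e he => absurd ⟨e, he⟩ q⟩
  choose pt hpt using this
  obtain ⟨c, hc⟩ := exists_pot M fun e => η (M.src e) (pt (M.tgt e))
  have wd : ∀ n ∈ N, ∀ n' ∈ N, ∀ a ∈ M.sp n, a ∈ M.sp n' → η n a + c n = η n' a + c n' :=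
    fun n hn n' hn' a ha ha' => by
      by_cases q : n = n'
      · rw [q]
      obtain ⟨e, rfl, rfl, a3⟩ := L.w2 n n' a (h.ty _ hn) (h.ty _ hn') q ha ha'
      have k1 := t0 L e (φ := fun s => η (M.src e) s - η (M.src (L.op e)) s) (fun s hs t ht c => by
        rw [sub_eq_sub_iff_sub_eq_sub, ← neg_inj, neg_sub, neg_sub,
          ← hη _ hn s (L.wall e hs) t (L.wall e ht) (.inr c),
          ← hη _ hn' s (wall_op L e hs) t (wall_op L e ht) (.inr c)])
        a (a3 (Finset.mem_inter.2 ⟨ha, ha'⟩)) _ (hpt _ e rfl)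
      have k2 := hc (L.op e)
      rw [L.tgt_op, hc e] at k2
      rw [← sub_eq_zero] at k1 k2 ⊢
      rw [← add_zero 0]
      nth_rewrite 1 [← k1]
      rw [← k2]
      abel
  have : Nonempty Nd := ⟨L.vtx.choose⟩
  have ex : ∀ a ∈ Mod M N, ∃ n, n ∈ N ∧ a ∈ M.sp n := fun _ k => k
  choose! nd hnd using ex
  refine ⟨fun a => η (nd a) a + c (nd a), fun a ha b hb q => ?_⟩
  obtain ⟨n, hn, a1, b1⟩ := h.full2 ha hb q
  dsimp only
  rw [wd _ (hnd a ha).1 n hn a (hnd a ha).2 a1, wd _ (hnd b hb).1 n hn b (hnd b hb).2 b1,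
    add_sub_add_right_eq_sub, hη n hn a a1 b b1 q]

/-- span form: `B` contains the boundary half edges, `ξ` is dual to their meridians -/
theorem h1_span (h : Sub L N) {φ : S → S → A} (hφ : Z1 M.Γ (Mod M N) φ) (B : Finset Ed)
    (hB : ∀ e, M.src e ∈ N → M.src (L.op e) ∉ N → e ∈ B) {ξ : Ed → S → S → ℤ}
    (hξ : ∀ j ∈ B, Z1 M.Γ (Mod M N) (ξ j))
    (hp : ∀ e ∈ B, ∀ j ∈ B, p1 M e (L.m e) (ξ j) = if j = e then 1 else 0) :
    ∃ η : S → A, ∀ a ∈ Mod M N, ∀ b ∈ Mod M N, Cl M.Γ a b →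
      φ a b = η b - η a + ∑ j ∈ B, ξ j a b • p1 M j (L.m j) φ := by
  obtain ⟨η, k⟩ := h1 h (hφ.sub_sum hξ fun j => p1 M j (L.m j) φ) fun e h1 h2 => by
    rw [p1_sub_sum, Finset.sum_congr rfl fun j hj => by rw [hp e (hB e h1 h2) j hj]]
    simp [hB e h1 h2]
  exact ⟨η, fun a ha b hb c => by rw [← k a ha b hb c, sub_add_cancel]⟩



end Crest.Agent.N255.Md

end
private theorem rz_3ba782f6cb : type_of% @_root_.Crest.Agent.N255.Md.pot.eq_1 := @_root_.Crest.Agent.N255.Md.pot.eq_1 -- L17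
end

-- ▼ part N255/Md/Tu

/-!
# Row 255 (helper12): periods as sums over ordered tuples, cochains on tuples
-/

set_option autoImplicit false

noncomputable section

namespace Crest.Agent.N255.Md

open Nv

variable {S K : Type} {Γ : SimpleGraph S} {A : Type} [AddCommGroup A]

section per
variable [DecidableEq S] [LinearOrder K] {col : S → K} {T : Finset S} {z : Finset S → ℤ}

theorem sum_ite_sub {t : Finset S} (h : t ∈ T.powerset) (f : S → A) :
    ∑ a ∈ t, f a = ∑ a ∈ T, if a ∈ t then f a else 0 := by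
  rw [Finset.sum_ite_mem, Finset.inter_eq_right.2 (Finset.mem_powerset.1 h)]

theorem pA_s1 (hz : ∀ t, z t ≠ 0 → t.card = 2) (φ : S → S → A) : pA z T (s1 col φ) =
    ∑ a ∈ T, ∑ b ∈ T, if col a < col b then z {a, b} • φ a b else 0 := by
  have e : ∀ t ∈ T.powerset, z t • s1 col φ t = ∑ a ∈ T, ∑ b ∈ T,
      if col a < col b ∧ t = {a, b} then z t • φ a b else 0 := fun t ht => by
    by_cases q : z t = 0
    · simp [q]
    rw [s1, sum_ite_sub ht, Finset.smul_sum]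
    refine Finset.sum_congr rfl fun a _ => ?_
    rw [sum_ite_sub ht, Finset.ite_sum_zero, Finset.smul_sum]
    refine Finset.sum_congr rfl fun b _ => ?_
    by_cases l : col a < col b
    · have : a ∈ t ∧ b ∈ t ↔ t = {a, b} := ⟨fun k => (Finset.eq_of_subset_of_card_le
        (Finset.insert_subset k.1 (by simpa using k.2))
        (by rw [hz t q, Finset.card_pair fun e : a = b => l.ne (e ▸ rfl)])).symm, by rintro rfl; simp⟩
      simp [← this, l, ite_and]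
    · simp [l]
  rw [pA, Finset.sum_congr rfl e, Finset.sum_comm]
  refine Finset.sum_congr rfl fun a ha => ?_
  rw [Finset.sum_comm]
  refine Finset.sum_congr rfl fun b hb => ?_
  by_cases l : col a < col b
  · simp [l, Finset.insert_subset_iff, ha, hb]
  · simp [l]

theorem pA_s2 (hz : ∀ t, z t ≠ 0 → t.card = 3) (φ : S → S → S → A) : pA z T (s2 col φ) =
    ∑ a ∈ T, ∑ b ∈ T, ∑ c ∈ T,
      if col a < col b ∧ col b < col c then z {a, b, c} • φ a b c else 0 := by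
  have e : ∀ t ∈ T.powerset, z t • s2 col φ t = ∑ a ∈ T, ∑ b ∈ T, ∑ c ∈ T,
      if (col a < col b ∧ col b < col c) ∧ t = {a, b, c} then z t • φ a b c else 0 := fun t ht => by
    by_cases q : z t = 0
    · simp [q]
    rw [s2, sum_ite_sub ht, Finset.smul_sum]
    refine Finset.sum_congr rfl fun a _ => ?_
    rw [sum_ite_sub ht, Finset.ite_sum_zero, Finset.smul_sum]
    refine Finset.sum_congr rfl fun b _ => ?_
    rw [sum_ite_sub ht, Finset.ite_sum_zero, Finset.ite_sum_zero, Finset.smul_sum]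
    refine Finset.sum_congr rfl fun c _ => ?_
    by_cases l : col a < col b ∧ col b < col c
    · have n : ∀ {x y : S}, col x < col y → x ≠ y := fun h e => h.ne (e ▸ rfl)
      have : a ∈ t ∧ b ∈ t ∧ c ∈ t ↔ t = {a, b, c} := ⟨fun k => (Finset.eq_of_subset_of_card_le
        (Finset.insert_subset k.1 (Finset.insert_subset k.2.1 (by simpa using k.2.2)))
        (by rw [hz t q, Finset.card_eq_three.2 ⟨a, b, c, n l.1, n (l.1.trans l.2), n l.2, rfl⟩])).symm,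
        by rintro rfl; simp⟩
      simp [← this, l, ite_and]
    · simp [l]
  rw [pA, Finset.sum_congr rfl e, Finset.sum_comm]
  refine Finset.sum_congr rfl fun a ha => ?_
  rw [Finset.sum_comm]
  refine Finset.sum_congr rfl fun b hb => ?_
  rw [Finset.sum_comm]
  refine Finset.sum_congr rfl fun c hc => ?_
  by_cases l : col a < col b ∧ col b < col c
  · simp [l, Finset.insert_subset_iff, ha, hb, hc]
  · simp [l]

end per

theorem ct_iff {U : Set S} {n : ℕ} {τ : Tu S n} :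
    τ ∈ CT (Cl Γ) U n ↔ (∀ i, τ i ∈ U) ∧ ∀ i j, Cl Γ (τ i) (τ j) := by
  simp [CT, Cq, Set.range_subset_iff]

/-- the cup product of closed cochains -/
theorem Z1.cup {U : Set S} {α β : S → S → ℤ} (hα : Z1 Γ U α) (hβ : Z1 Γ U β) :
    Z2 Γ U fun a b c => α a b * β b c := fun a ha b hb c hc d hd h1 h2 _ h4 h5 h6 => by
  dsimp only
  rw [hα a ha b hb c hc h1 h2 h4, hβ b hb c hc d hd h4 h5 h6]
  ring

variable {k : Type} [CommRing k] [Module k A] {U : Set S}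

theorem z0_of {ψ : Tu S 0 → A} (h : ∀ τ ∈ CT (Cl Γ) U 1, td k ψ τ = 0) :
    ∀ a ∈ U, ∀ b ∈ U, Γ.Adj a b → ψ ![a] = ψ ![b] := fun a ha b hb c => by
  have := h ![a, b] (ct_iff.2 ⟨by simp [Fin.forall_fin_succ, *],
    by simp [Fin.forall_fin_succ, Cl, c, c.symm]⟩)
  rw [td0, sub_eq_zero] at this
  exact this.symm

theorem z1_of {ψ : Tu S 1 → A} (h : ∀ τ ∈ CT (Cl Γ) U 2, td k ψ τ = 0) :
    Z1 Γ U fun a b => ψ ![a, b] := fun a ha b hb c hc h1 h2 h3 => by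
  have := h ![a, b, c] (ct_iff.2 ⟨by simp [Fin.forall_fin_succ, *],
    by simp [Fin.forall_fin_succ, Cl.refl, h1.symm, h2.symm, h3.symm, *]⟩)
  rw [td1] at this
  rw [← sub_eq_zero, ← neg_eq_zero, ← this]
  simp only [Matrix.cons_val]
  abel

theorem z2_of {ψ : Tu S 2 → A} (h : ∀ τ ∈ CT (Cl Γ) U 3, td k ψ τ = 0) :
    Z2 Γ U fun a b c => ψ ![a, b, c] := fun a ha b hb c hc d hd h1 h2 h3 h4 h5 h6 => by
  have := h ![a, b, c, d] (ct_iff.2 ⟨by simp [Fin.forall_fin_succ, *], by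
    simp [Fin.forall_fin_succ, Cl.refl, h1.symm, h2.symm, h3.symm, h4.symm, h5.symm, h6.symm, *]⟩)
  rw [td2] at this
  rw [← sub_eq_zero, ← this]
  simp only [Matrix.cons_val]
  abel

omit [AddCommGroup A] in
theorem tu0 (ψ : Tu S 0 → A) (τ : Tu S 0) : ψ τ = ψ ![τ 0] :=
  congrArg ψ (by funext j; fin_cases j; rfl)

omit [AddCommGroup A] in
theorem tu1 (ψ : Tu S 1 → A) (τ : Tu S 1) : ψ τ = ψ ![τ 0, τ 1] :=
  congrArg ψ (by funext j; fin_cases j <;> rfl)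

omit [AddCommGroup A] in
theorem tu2 (ψ : Tu S 2 → A) (τ : Tu S 2) : ψ τ = ψ ![τ 0, τ 1, τ 2] :=
  congrArg ψ (by funext j; fin_cases j <;> rfl)

variable (k) in
theorem ex1_of {ψ : Tu S 1 → A} {η : S → A} {r : S → S → A}
    (h : ∀ a ∈ U, ∀ b ∈ U, Cl Γ a b → ψ ![a, b] = η b - η a + r a b) :
    ∀ τ ∈ CT (Cl Γ) U 1, ψ τ = td k (fun σ : Tu S 0 => η (σ 0)) τ + r (τ 0) (τ 1) := fun τ hτ => by
  obtain ⟨h1, h2⟩ := ct_iff.1 hτ
  rw [tu1 ψ, h _ (h1 0) _ (h1 1) (h2 0 1), td0]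
  rfl

variable (k) in
theorem ex2_of {ψ : Tu S 2 → A} {η : S → S → A} {r : S → S → S → A}
    (h : ∀ a ∈ U, ∀ b ∈ U, ∀ c ∈ U, Cl Γ a b → Cl Γ a c → Cl Γ b c →
      ψ ![a, b, c] = η b c - η a c + η a b + r a b c) :
    ∀ τ ∈ CT (Cl Γ) U 2, ψ τ = td k (fun σ : Tu S 1 => η (σ 0) (σ 1)) τ + r (τ 0) (τ 1) (τ 2) :=
  fun τ hτ => by
    obtain ⟨h1, h2⟩ := ct_iff.1 hτ
    rw [tu2 ψ, h _ (h1 0) _ (h1 1) _ (h1 2) (h2 0 1) (h2 0 2) (h2 1 2), td1]
    rfl

theorem Z1.td {φ : S → S → A} (h : Z1 Γ U φ) :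
    ∀ τ ∈ CT (Cl Γ) U 2, td k (fun σ : Tu S 1 => φ (σ 0) (σ 1)) τ = 0 := fun τ hτ => by
  obtain ⟨h1, h2⟩ := ct_iff.1 hτ
  rw [td1]
  simp only [Matrix.cons_val]
  rw [h _ (h1 0) _ (h1 1) _ (h1 2) (h2 0 1) (h2 0 2) (h2 1 2)]
  abel

end Crest.Agent.N255.Md

end
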